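import Mathlib

/-!
Analysis of the standard bump, its primitive, the plateau functions and periodizations.
-/

open MeasureTheory Set Filter Topology
open scoped ContDiff

namespace Vale.Agent.P113.H586

/-- The standard bump. -/
noncomputable def rho (s : ℝ) : ℝ := if |s| < 1 then Real.exp (-1 / (1 - s ^ 2)) else 0

theorem rho_eq_glue (s : ℝ) : rho s = expNegInvGlue (1 - s ^ 2) := by
  unfold rho expNegInvGlue
  by_cases h : |s| < 1
  · have h2 : ¬ (1 - s ^ 2 ≤ 0) := by
      have := (sq_lt_one_iff_abs_lt_one s).mpr h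
      linarith
    rw [if_pos h, if_neg h2]
    congr 1
    rw [neg_div, one_div]
  · have h2 : (1 - s ^ 2 ≤ 0) := by
      by_contra h3
      exact h ((sq_lt_one_iff_abs_lt_one s).mp (by linarith))
    rw [if_neg h, if_pos h2]

theorem contDiff_rho : ContDiff ℝ ∞ rho := by
  have : rho = fun s => expNegInvGlue (1 - s ^ 2) := funext rho_eq_glue
  rw [this]
  exact expNegInvGlue.contDiff.comp (contDiff_const.sub (contDiff_id.pow 2))

theorem continuous_rho : Continuous rho := contDiff_rho.continuous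

theorem rho_nonneg (s : ℝ) : 0 ≤ rho s := by
  rw [rho_eq_glue]; exact expNegInvGlue.nonneg _

theorem rho_pos {s : ℝ} (h : |s| < 1) : 0 < rho s := by
  unfold rho; rw [if_pos h]; exact Real.exp_pos _

theorem rho_eq_zero {s : ℝ} (h : 1 ≤ |s|) : rho s = 0 := by
  unfold rho; rw [if_neg (not_lt.mpr h)]

theorem rho_neg (s : ℝ) : rho (-s) = rho s := by
  unfold rho; simp

/-- The `j`-th derivative of the standard bump. -/
noncomputable def drho (j : ℕ) : ℝ → ℝ := iteratedDeriv j rho

theorem contDiff_drho (j : ℕ) : ContDiff ℝ ∞ (drho j) := by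
  unfold drho
  have : iteratedDeriv j rho = deriv^[j] rho := iteratedDeriv_eq_iterate
  rw [this]
  exact contDiff_rho.iterate_deriv j

theorem hasDerivAt_drho (j : ℕ) (s : ℝ) : HasDerivAt (drho j) (drho (j + 1) s) s := by
  have h : DifferentiableAt ℝ (drho j) s :=
    (contDiff_drho j).differentiable (by simp) s
  have := h.hasDerivAt
  unfold drho at this ⊢
  rwa [iteratedDeriv_succ]

theorem drho_zero : drho 0 = rho := iteratedDeriv_zero

theorem drho_eq_zero (j : ℕ) {s : ℝ} (h : 1 < |s|) : drho j s = 0 := by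
  induction j generalizing s with
  | zero => rw [drho_zero]; exact rho_eq_zero h.le
  | succ j ih =>
    have h1 := hasDerivAt_drho j s
    have h2 : drho j =ᶠ[𝓝 s] fun _ => 0 := by
      have : ∀ᶠ t in 𝓝 s, 1 < |t| := (continuous_abs.tendsto s).eventually (lt_mem_nhds h)
      filter_upwards [this] with t ht using ih ht
    have h3 : HasDerivAt (drho j) 0 s := (hasDerivAt_const s (0:ℝ)).congr_of_eventuallyEq h2
    exact h1.unique h3

theorem drho_eq_zero' (j : ℕ) {s : ℝ} (h : 1 ≤ |s|) : drho j s = 0 := by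
  have hc : Continuous (drho j) := (contDiff_drho j).continuous
  have hcl : IsClosed {t : ℝ | drho j t = 0} := isClosed_eq hc continuous_const
  rcases le_abs.mp h with h1 | h1
  · have : s ∈ closure (Ioi s) := by
      rw [closure_Ioi]; exact mem_Ici.mpr le_rfl
    exact hcl.closure_subset_iff.mpr (fun t ht => drho_eq_zero j
      (lt_of_lt_of_le (lt_of_le_of_lt h1 ht) (le_abs_self t))) this
  · have : s ∈ closure (Iio s) := by
      rw [closure_Iio]; exact mem_Iic.mpr le_rfl
    refine hcl.closure_subset_iff.mpr (fun t ht => drho_eq_zero j ?_) this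
    have : t < s := ht
    exact lt_of_lt_of_le (by linarith : (1:ℝ) < -t) (neg_le_abs t)

/-- The total mass of the standard bump. -/
noncomputable def kappa : ℝ := ∫ s, rho s

/-- The primitive of the standard bump. -/
noncomputable def sigma (s : ℝ) : ℝ := ∫ t in Iic s, rho t

/-- The plateau function. -/
noncomputable def plateau (l s : ℝ) : ℝ := sigma s - sigma (s - l)

theorem hasCompactSupport_rho : HasCompactSupport rho := by
  refine HasCompactSupport.intro (K := Icc (-1) 1) isCompact_Icc ?_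
  intro x hx
  apply rho_eq_zero
  by_contra h
  push Not at h
  exact hx ⟨(abs_lt.mp h).1.le, (abs_lt.mp h).2.le⟩

theorem integrable_rho : Integrable rho :=
  continuous_rho.integrable_of_hasCompactSupport hasCompactSupport_rho

theorem kappa_pos : 0 < kappa := by
  unfold kappa
  rw [integral_pos_iff_support_of_nonneg rho_nonneg integrable_rho]
  have : Ioo (-1:ℝ) 1 ⊆ Function.support rho := by
    intro x hx
    exact (rho_pos (abs_lt.mpr hx)).ne'
  refine lt_of_lt_of_le ?_ (measure_mono this)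
  simp

theorem sigma_eq_zero {s : ℝ} (h : s ≤ -1) : sigma s = 0 := by
  unfold sigma
  rw [setIntegral_congr_fun (g := fun _ => (0:ℝ)) measurableSet_Iic]
  · simp
  · intro t ht
    apply rho_eq_zero
    rw [le_abs]; right
    have : t ≤ s := ht
    linarith

theorem sigma_eq_intervalIntegral (s : ℝ) : sigma s = ∫ t in (-1)..s, rho t := by
  have h := intervalIntegral.integral_Iic_sub_Iic (f := rho) (a := -1) (b := s) (μ := volume)
    integrable_rho.integrableOn integrable_rho.integrableOn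
  rw [← h]
  have : ∫ t in Iic (-1), rho t = 0 := sigma_eq_zero le_rfl
  rw [this, sub_zero]; rfl

theorem hasDerivAt_sigma (s : ℝ) : HasDerivAt sigma (rho s) s := by
  have : sigma = fun s => ∫ t in (-1)..s, rho t := funext sigma_eq_intervalIntegral
  rw [this]
  exact intervalIntegral.integral_hasDerivAt_right
    (continuous_rho.intervalIntegrable _ _)
    (continuous_rho.stronglyMeasurableAtFilter _ _) continuous_rho.continuousAt

theorem contDiff_sigma : ContDiff ℝ ∞ sigma := by
  rw [contDiff_infty_iff_deriv]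
  refine ⟨fun s => (hasDerivAt_sigma s).differentiableAt, ?_⟩
  have : deriv sigma = rho := funext fun s => (hasDerivAt_sigma s).deriv
  rw [this]; exact contDiff_rho

theorem sigma_eq_kappa {s : ℝ} (h : 1 ≤ s) : sigma s = kappa := by
  unfold sigma kappa
  rw [← integral_indicator measurableSet_Iic]
  congr 1
  ext t
  by_cases ht : t ≤ s
  · rw [indicator_of_mem (mem_Iic.mpr ht)]
  · rw [indicator_of_notMem (by simpa using ht)]
    symm; apply rho_eq_zero
    rw [le_abs]; left
    push Not at ht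
    linarith

theorem sigma_mono : Monotone sigma := by
  apply monotone_of_deriv_nonneg
  · exact fun s => (hasDerivAt_sigma s).differentiableAt
  · intro s; rw [(hasDerivAt_sigma s).deriv]; exact rho_nonneg s

theorem sigma_nonneg (s : ℝ) : 0 ≤ sigma s := by
  rcases le_total s (-1) with h | h
  · rw [sigma_eq_zero h]
  · rw [← sigma_eq_zero (le_refl (-1:ℝ))]; exact sigma_mono h

theorem sigma_le_kappa (s : ℝ) : sigma s ≤ kappa := by
  rcases le_total s 1 with h | h
  · rw [← sigma_eq_kappa (le_refl (1:ℝ))]; exact sigma_mono h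
  · rw [sigma_eq_kappa h]

theorem hasDerivAt_plateau (l s : ℝ) :
    HasDerivAt (plateau l) (rho s - rho (s - l)) s := by
  unfold plateau
  have h2 : HasDerivAt (fun s => sigma (s - l)) (rho (s - l)) s := by
    simpa using (hasDerivAt_sigma (s - l)).comp_sub_const s l
  exact (hasDerivAt_sigma s).sub h2

theorem contDiff_plateau (l : ℝ) : ContDiff ℝ ∞ (plateau l) := by
  unfold plateau
  exact contDiff_sigma.sub (contDiff_sigma.comp (contDiff_id.sub contDiff_const))

/-- The plateau: value `κ` on `[1, l-1]`. -/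
theorem plateau_eq_kappa {l s : ℝ} (h1 : 1 ≤ s) (h2 : s ≤ l - 1) : plateau l s = kappa := by
  unfold plateau
  rw [sigma_eq_kappa h1, sigma_eq_zero (by linarith), sub_zero]

theorem plateau_eq_zero_left {l s : ℝ} (hl : 0 ≤ l) (h : s ≤ -1) : plateau l s = 0 := by
  unfold plateau
  rw [sigma_eq_zero h, sigma_eq_zero (by linarith), sub_zero]

theorem plateau_eq_zero_right {l s : ℝ} (hl : 0 ≤ l) (h : l + 1 ≤ s) : plateau l s = 0 := by
  unfold plateau
  rw [sigma_eq_kappa (by linarith), sigma_eq_kappa (by linarith), sub_self]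

/-! ### Periodization -/

/-- The `1`-periodization of a function. -/
noncomputable def periodize (g : ℝ → ℝ) (y : ℝ) : ℝ := ∑' m : ℤ, g (y + m)

/-- A smooth function with bounded support. -/
structure Nice (g : ℝ → ℝ) : Prop where
  smooth : ContDiff ℝ ∞ g
  supp : ∃ R : ℝ, ∀ s, R ≤ |s| → g s = 0

theorem periodize_eq_sum {g : ℝ → ℝ} {R : ℝ} (hg : ∀ s, R ≤ |s| → g s = 0) {A : ℝ} {N : ℕ}
    (hN : R + A ≤ N) {y : ℝ} (hy : |y| ≤ A) :
    periodize g y = ∑ m ∈ Finset.Icc (-(N:ℤ)) N, g (y + m) := by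
  unfold periodize
  apply tsum_eq_sum
  intro m hm
  apply hg
  have h1 : (N:ℤ) + 1 ≤ |m| := by
    by_contra h
    push Not at h
    have : |m| ≤ N := by omega
    exact hm (Finset.mem_Icc.mpr (abs_le.mp this))
  have h2 : (N:ℝ) + 1 ≤ |(m:ℝ)| := by exact_mod_cast h1
  have h3 : |(m:ℝ)| ≤ |y + m| + |y| := by
    have := abs_sub (y + m) y
    simpa using this
  linarith

theorem periodize_eventuallyEq {g : ℝ → ℝ} {R : ℝ} (hg : ∀ s, R ≤ |s| → g s = 0) (y : ℝ) :
    ∃ N : ℕ, ∀ᶠ z in 𝓝 y, periodize g z = ∑ m ∈ Finset.Icc (-(N:ℤ)) N, g (z + m) := by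
  obtain ⟨N, hN⟩ := exists_nat_ge (R + (|y| + 1))
  refine ⟨N, ?_⟩
  have : ∀ᶠ z in 𝓝 y, |z| < |y| + 1 :=
    (continuous_abs.tendsto y).eventually (gt_mem_nhds (by linarith))
  filter_upwards [this] with z hz
  exact periodize_eq_sum hg hN hz.le

theorem contDiff_periodize {g : ℝ → ℝ} (hg : Nice g) : ContDiff ℝ ∞ (periodize g) := by
  obtain ⟨R, hR⟩ := hg.supp
  rw [contDiff_iff_contDiffAt]
  intro y
  obtain ⟨N, hN⟩ := periodize_eventuallyEq hR y
  refine ContDiffAt.congr_of_eventuallyEq ?_ hN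
  apply ContDiffAt.sum
  intro m _
  exact (hg.smooth.comp (contDiff_id.add contDiff_const)).contDiffAt

theorem supp_deriv {g g' : ℝ → ℝ} {R : ℝ} (hg : ∀ s, R ≤ |s| → g s = 0)
    (hd : ∀ s, HasDerivAt g (g' s) s) : ∀ s, R + 1 ≤ |s| → g' s = 0 := by
  intro s hs
  have h2 : g =ᶠ[𝓝 s] fun _ => 0 := by
    have : ∀ᶠ t in 𝓝 s, R < |t| :=
      (continuous_abs.tendsto s).eventually (lt_mem_nhds (by linarith))
    filter_upwards [this] with t ht using hg t ht.le
  exact (hd s).unique ((hasDerivAt_const s (0:ℝ)).congr_of_eventuallyEq h2)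

theorem hasDerivAt_periodize {g g' : ℝ → ℝ} (hg : ∃ R : ℝ, ∀ s, R ≤ |s| → g s = 0)
    (hd : ∀ s, HasDerivAt g (g' s) s) (y : ℝ) :
    HasDerivAt (periodize g) (periodize g' y) y := by
  obtain ⟨R, hR⟩ := hg
  have hR' := supp_deriv hR hd
  obtain ⟨N, hN⟩ := exists_nat_ge (R + 1 + (|y| + 1))
  have h1 : ∀ᶠ z in 𝓝 y, periodize g z = ∑ m ∈ Finset.Icc (-(N:ℤ)) N, g (z + m) := by
    have : ∀ᶠ z in 𝓝 y, |z| < |y| + 1 :=
      (continuous_abs.tendsto y).eventually (gt_mem_nhds (by linarith))
    filter_upwards [this] with z hz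
    exact periodize_eq_sum hR (by linarith : R + (|y| + 1) ≤ N) hz.le
  have h2 : periodize g' y = ∑ m ∈ Finset.Icc (-(N:ℤ)) N, g' (y + m) :=
    periodize_eq_sum hR' hN (by linarith)
  rw [h2]
  refine HasDerivAt.congr_of_eventuallyEq ?_ h1
  apply HasDerivAt.fun_sum
  intro m _
  exact (hd (y + m)).comp_add_const y (m:ℝ)

theorem periodize_add_int (g : ℝ → ℝ) (y : ℝ) (n : ℤ) :
    periodize g (y + n) = periodize g y := by
  unfold periodize
  have := (Equiv.addRight n).tsum_eq (fun m : ℤ => g (y + m))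
  rw [← this]
  apply tsum_congr
  intro m
  congr 1
  simp only [Equiv.coe_addRight, Int.cast_add]
  ring

theorem periodize_add_one (g : ℝ → ℝ) (y : ℝ) : periodize g (y + 1) = periodize g y := by
  simpa using periodize_add_int g y 1

/-- If `g` vanishes outside the open interval of length one centred at `c`, then the periodization
equals `g` on the closed interval. -/
theorem periodize_eq_self {g : ℝ → ℝ} {c : ℝ} (hg : ∀ s, 1 / 2 ≤ |s - c| → g s = 0) {y : ℝ}
    (hy : |y - c| ≤ 1 / 2) : periodize g y = g y := by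
  unfold periodize
  rw [tsum_eq_single (0:ℤ)]
  · simp
  · intro m hm
    apply hg
    have h1 : (1:ℤ) ≤ |m| := Int.one_le_abs hm
    have h2 : (1:ℝ) ≤ |(m:ℝ)| := by exact_mod_cast h1
    have h3 : |(m:ℝ)| ≤ |y + m - c| + |y - c| := by
      have := abs_sub (y + m - c) (y - c)
      have e : y + m - c - (y - c) = m := by ring
      rwa [e] at this
    linarith

/-- The same on any integer translate. -/
theorem periodize_eq_translate {g : ℝ → ℝ} {c : ℝ} (hg : ∀ s, 1 / 2 ≤ |s - c| → g s = 0) {y : ℝ}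
    (n : ℤ) (hy : |y - n - c| ≤ 1 / 2) : periodize g y = g (y - n) := by
  have := periodize_add_int g (y - n) n
  rw [sub_add_cancel] at this
  rw [this]
  exact periodize_eq_self hg hy

theorem periodize_const_mul (c : ℝ) (g : ℝ → ℝ) (y : ℝ) :
    periodize (fun s => c * g s) y = c * periodize g y := by
  unfold periodize
  exact tsum_mul_left

theorem summable_periodize {g : ℝ → ℝ} (hg : ∃ R : ℝ, ∀ s, R ≤ |s| → g s = 0) (y : ℝ) :
    Summable (fun m : ℤ => g (y + m)) := by
  obtain ⟨R, hR⟩ := hg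
  obtain ⟨N, hN⟩ := exists_nat_ge (R + |y|)
  apply summable_of_ne_finset_zero (s := Finset.Icc (-(N:ℤ)) N)
  intro m hm
  apply hR
  have h1 : (N:ℤ) + 1 ≤ |m| := by
    by_contra h
    push Not at h
    have : |m| ≤ N := by omega
    exact hm (Finset.mem_Icc.mpr (abs_le.mp this))
  have h2 : (N:ℝ) + 1 ≤ |(m:ℝ)| := by exact_mod_cast h1
  have h3 : |(m:ℝ)| ≤ |y + m| + |y| := by
    have := abs_sub (y + m) y
    simpa using this
  linarith

theorem periodize_add {g h : ℝ → ℝ} (hg : ∃ R : ℝ, ∀ s, R ≤ |s| → g s = 0)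
    (hh : ∃ R : ℝ, ∀ s, R ≤ |s| → h s = 0) (y : ℝ) :
    periodize (fun s => g s + h s) y = periodize g y + periodize h y := by
  unfold periodize
  exact (summable_periodize hg y).tsum_add (summable_periodize hh y)

/-! ### Bumps -/

/-- The bump `s ↦ s^k ρ^(j)(a s - b)`. -/
noncomputable def bumpR (k j : ℕ) (a b : ℝ) (s : ℝ) : ℝ := s ^ k * drho j (a * s - b)

/-- The bump `s ↦ s^k π_l(a s - b)`. -/
noncomputable def bumpP (k : ℕ) (l a b : ℝ) (s : ℝ) : ℝ := s ^ k * plateau l (a * s - b)

theorem abs_large {a b s C : ℝ} (ha : a ≠ 0) (hs : (C + |b|) / |a| ≤ |s|) :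
    C ≤ |a * s - b| := by
  have ha' : 0 < |a| := abs_pos.mpr ha
  rw [div_le_iff₀ ha'] at hs
  have h3 : |a * s| ≤ |a * s - b| + |b| := by
    have := abs_add_le (a * s - b) b
    simpa using this
  rw [abs_mul] at h3
  nlinarith

theorem bumpR_supp (k j : ℕ) {a : ℝ} (b : ℝ) (ha : a ≠ 0) :
    ∀ s, (1 + |b|) / |a| ≤ |s| → bumpR k j a b s = 0 := by
  intro s hs
  unfold bumpR
  rw [drho_eq_zero' j (abs_large ha hs), mul_zero]

theorem plateau_eq_zero {l s : ℝ} (hl : 0 ≤ l) (h : l + 1 ≤ |s|) : plateau l s = 0 := by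
  rcases le_abs.mp h with h1 | h1
  · exact plateau_eq_zero_right hl h1
  · exact plateau_eq_zero_left hl (by linarith)

theorem bumpP_supp (k : ℕ) {l a : ℝ} (b : ℝ) (hl : 0 ≤ l) (ha : a ≠ 0) :
    ∀ s, (l + 1 + |b|) / |a| ≤ |s| → bumpP k l a b s = 0 := by
  intro s hs
  unfold bumpP
  rw [plateau_eq_zero hl (abs_large ha hs), mul_zero]

theorem contDiff_affine (a b : ℝ) : ContDiff ℝ ∞ (fun s : ℝ => a * s - b) :=
  (contDiff_const.mul contDiff_id).sub contDiff_const

theorem nice_bumpR (k j : ℕ) {a : ℝ} (b : ℝ) (ha : a ≠ 0) : Nice (bumpR k j a b) where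
  smooth := (contDiff_id.pow k).mul ((contDiff_drho j).comp (contDiff_affine a b))
  supp := ⟨_, bumpR_supp k j b ha⟩

theorem nice_bumpP (k : ℕ) {l a : ℝ} (b : ℝ) (hl : 0 ≤ l) (ha : a ≠ 0) :
    Nice (bumpP k l a b) where
  smooth := (contDiff_id.pow k).mul ((contDiff_plateau l).comp (contDiff_affine a b))
  supp := ⟨_, bumpP_supp k b hl ha⟩

theorem hasDerivAt_affine (a b s : ℝ) : HasDerivAt (fun s : ℝ => a * s - b) a s := by
  simpa using ((hasDerivAt_id s).const_mul a).sub_const b

theorem hasDerivAt_bumpR (k j : ℕ) (a b s : ℝ) :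
    HasDerivAt (bumpR k j a b) (k * bumpR (k - 1) j a b s + a * bumpR k (j + 1) a b s) s := by
  unfold bumpR
  have h1 := hasDerivAt_pow k s
  have h2 := (hasDerivAt_drho j (a * s - b)).comp s (hasDerivAt_affine a b s)
  have h3 := h1.mul h2
  refine h3.congr_deriv ?_
  simp only [Function.comp_apply]
  ring

theorem hasDerivAt_bumpP (k : ℕ) (l a b s : ℝ) :
    HasDerivAt (bumpP k l a b)
      (k * bumpP (k - 1) l a b s + (a * bumpR k 0 a b s + (-a) * bumpR k 0 a (b + l) s)) s := by
  unfold bumpP bumpR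
  have h1 := hasDerivAt_pow k s
  have h2 := (hasDerivAt_plateau l (a * s - b)).comp s (hasDerivAt_affine a b s)
  have h3 := h1.mul h2
  refine h3.congr_deriv ?_
  simp only [Function.comp_apply, drho_zero]
  rw [show a * s - b - l = a * s - (b + l) by ring]
  ring

end Vale.Agent.P113.H586
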