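import Vale.Agent.P113.Defs

/-!
The halting predicate of the raw machine data is recursively enumerable.
-/

namespace Vale.Agent.P113.H586

/-- A finite configuration: state, left part (nearest cell first), right part (head first). -/
abbrev FCfg := ℕ × List ℕ × List ℕ

/-- The finite configuration `c` represents `C`. -/
structure Rep (c : FCfg) (C : Cfg) : Prop where
  state : C.state = c.1
  right : ∀ n : ℕ, C.tape (C.head + n) = c.2.2.getD n 0
  left : ∀ n : ℕ, C.tape (C.head - 1 - n) = c.2.1.getD n 0

theorem lookup_eq (M : Machine) (q a : ℕ) : M.lookup q a = M.table.lookup (q, a) := by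
  unfold Machine.lookup
  induction M.table with
  | nil => rfl
  | cons e T ih =>
    obtain ⟨⟨q', a'⟩, r⟩ := e
    rw [List.lookup_cons, List.find?_cons]
    by_cases h : q' = q ∧ a' = a
    · obtain ⟨rfl, rfl⟩ := h
      simp
    · have h1 : (q' == q && a' == a) = false := by
        rw [Bool.eq_false_iff]
        simpa using h
      have h2 : ((q, a) == (q', a')) = false := by
        rw [beq_eq_false_iff_ne]
        intro h3
        injection h3 with h4 h5
        exact h ⟨h4.symm, h5.symm⟩
      simp only [h1, h2]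
      exact ih

/-- The result of writing and moving. -/
def fmove (c : FCfg) (r : ℕ × ℕ × Fin 3) : FCfg :=
  if (r.2.2 : ℕ) = 0 then (r.1, c.2.1.tail, c.2.1.headI :: r.2.1 :: c.2.2.tail)
  else if (r.2.2 : ℕ) = 1 then (r.1, c.2.1, r.2.1 :: c.2.2.tail)
  else (r.1, r.2.1 :: c.2.1, c.2.2.tail)

/-- One step on finite configurations. -/
def fstep (M : Machine) (c : FCfg) : Option FCfg :=
  (M.table.lookup (c.1, c.2.2.headI)).map (fmove c)

/-- Iteration on finite configurations. -/
def fiter (M : Machine) (c : FCfg) (n : ℕ) : Option FCfg :=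
  Nat.rec (some c) (fun _ o => o.bind (fstep M)) n

theorem getD_zero_eq (l : List ℕ) : l.getD 0 0 = l.headI := by cases l <;> rfl

theorem getD_tail_eq (l : List ℕ) (n : ℕ) : l.tail.getD n 0 = l.getD (n + 1) 0 := by
  cases l <;> simp

theorem rep_move {c : FCfg} {C : Cfg} (h : Rep c C) (r : ℕ × ℕ × Fin 3) :
    Rep (fmove c r) ⟨r.1, C.head + ((r.2.2 : ℕ) : ℤ) - 1, Function.update C.tape C.head r.2.1⟩ := by
  obtain ⟨q, b, d⟩ := r
  have hd : (d : ℕ) = 0 ∨ (d : ℕ) = 1 ∨ (d : ℕ) = 2 := by omega
  unfold fmove
  rcases hd with hd | hd | hd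
  · simp only [hd, if_true]
    refine ⟨rfl, ?_, ?_⟩
    · intro n
      rcases n with _ | _ | n
      · have e : C.head + ((0:ℕ):ℤ) - 1 + ((0:ℕ):ℤ) = C.head - 1 - (0:ℕ) := by push_cast; ring
        simp only [List.getD_cons_zero]
        rw [e, Function.update_of_ne (by push_cast; omega), h.left 0, getD_zero_eq]
      · have e : C.head + ((0:ℕ):ℤ) - 1 + ((0 + 1 : ℕ):ℤ) = C.head := by push_cast; ring
        simp only [List.getD_cons_succ, List.getD_cons_zero]
        rw [e, Function.update_self]
      · have e : C.head + ((0:ℕ):ℤ) - 1 + ((n + 1 + 1 : ℕ):ℤ) = C.head + ((n + 1 : ℕ):ℤ) := by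
          push_cast; ring
        simp only [List.getD_cons_succ]
        rw [e, Function.update_of_ne (by push_cast; omega), h.right, getD_tail_eq]
    · intro n
      have e : C.head + ((0:ℕ):ℤ) - 1 - 1 - (n:ℤ) = C.head - 1 - ((n + 1 : ℕ):ℤ) := by
        push_cast; ring
      simp only
      rw [e, Function.update_of_ne (by push_cast; omega), h.left, getD_tail_eq]
  · simp only [hd, if_true, one_ne_zero, if_false]
    refine ⟨rfl, ?_, ?_⟩
    · intro n
      rcases n with _ | n
      · have e : C.head + ((1:ℕ):ℤ) - 1 + ((0:ℕ):ℤ) = C.head := by push_cast; ring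
        simp only [List.getD_cons_zero]
        rw [e, Function.update_self]
      · have e : C.head + ((1:ℕ):ℤ) - 1 + ((n + 1 : ℕ):ℤ) = C.head + ((n + 1 : ℕ):ℤ) := by
          push_cast; ring
        simp only [List.getD_cons_succ]
        rw [e, Function.update_of_ne (by push_cast; omega), h.right, getD_tail_eq]
    · intro n
      have e : C.head + ((1:ℕ):ℤ) - 1 - 1 - (n:ℤ) = C.head - 1 - (n:ℤ) := by
        push_cast; ring
      simp only
      rw [e, Function.update_of_ne (by omega), h.left]
  · simp only [hd, OfNat.ofNat_ne_zero, if_false, OfNat.ofNat_ne_one]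
    refine ⟨rfl, ?_, ?_⟩
    · intro n
      have e : C.head + ((2:ℕ):ℤ) - 1 + (n:ℤ) = C.head + ((n + 1 : ℕ):ℤ) := by push_cast; ring
      simp only
      rw [e, Function.update_of_ne (by push_cast; omega), h.right, getD_tail_eq]
    · intro n
      rcases n with _ | n
      · have e : C.head + ((2:ℕ):ℤ) - 1 - 1 - ((0:ℕ):ℤ) = C.head := by push_cast; ring
        simp only [List.getD_cons_zero]
        rw [e, Function.update_self]
      · have e : C.head + ((2:ℕ):ℤ) - 1 - 1 - ((n + 1 : ℕ):ℤ) = C.head - 1 - (n:ℤ) := by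
          push_cast; ring
        simp only [List.getD_cons_succ]
        rw [e, Function.update_of_ne (by omega), h.left]

theorem rep_init (M : Machine) (w : List ℕ) : Rep (M.start, [], w) (M.init w) := by
  refine ⟨rfl, ?_, ?_⟩
  · intro n
    simp [Machine.init]
  · intro n
    simp only [Machine.init]
    rw [if_neg (by omega)]
    simp

theorem rep_lookup {M : Machine} {c : FCfg} {C : Cfg} (h : Rep c C) :
    M.lookup C.state (C.tape C.head) = M.table.lookup (c.1, c.2.2.headI) := by
  have := h.right 0
  rw [getD_zero_eq] at this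
  rw [lookup_eq, h.state, ← this]
  simp

theorem fiter_succ (M : Machine) (c : FCfg) (n : ℕ) :
    fiter M c (n + 1) = (fiter M c n).bind (fstep M) := rfl

theorem exists_fiter {M : Machine} {w : List ℕ} {C : Cfg}
    (hC : Relation.ReflTransGen (fun c₁ c₂ => M.step c₁ = some c₂) (M.init w) C) :
    ∃ n c, fiter M (M.start, [], w) n = some c ∧ Rep c C := by
  induction hC with
  | refl => exact ⟨0, _, rfl, rep_init M w⟩
  | tail _ hstep ih =>
    obtain ⟨n, c, hn, hr⟩ := ih
    unfold Machine.step at hstep
    rw [rep_lookup hr, Option.map_eq_some_iff] at hstep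
    obtain ⟨r, hr1, hr2⟩ := hstep
    refine ⟨n + 1, fmove c r, ?_, ?_⟩
    · rw [fiter_succ, hn]
      simp [fstep, hr1]
    · rw [← hr2]; exact rep_move hr r

theorem exists_reach {M : Machine} {w : List ℕ} (n : ℕ) : ∀ {c : FCfg},
    fiter M (M.start, [], w) n = some c → ∃ C : Cfg,
      Relation.ReflTransGen (fun c₁ c₂ => M.step c₁ = some c₂) (M.init w) C ∧ Rep c C := by
  induction n with
  | zero =>
    intro c hc
    have : (M.start, [], w) = c := by injection hc
    exact ⟨M.init w, Relation.ReflTransGen.refl, this ▸ rep_init M w⟩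
  | succ n ih =>
    intro c hc
    rw [fiter_succ, Option.bind_eq_some_iff] at hc
    obtain ⟨c0, h0, h1⟩ := hc
    obtain ⟨C0, hC0, hr0⟩ := ih h0
    unfold fstep at h1
    rw [Option.map_eq_some_iff] at h1
    obtain ⟨r, hr1, hr2⟩ := h1
    have h2 : M.step C0 =
        some ⟨r.1, C0.head + ((r.2.2 : ℕ) : ℤ) - 1, Function.update C0.tape C0.head r.2.1⟩ := by
      unfold Machine.step
      rw [rep_lookup hr0, hr1]
      rfl
    exact ⟨_, hC0.tail h2, hr2 ▸ rep_move hr0 r⟩

theorem halts_iff (M : Machine) (w : List ℕ) :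
    M.Halts w ↔ ∃ n, ∃ c, fiter M (M.start, [], w) n = some c ∧ c.1 ∈ M.halting := by
  constructor
  · rintro ⟨C, hC, hh⟩
    obtain ⟨n, c, hn, hr⟩ := exists_fiter hC
    exact ⟨n, c, hn, hr.state ▸ hh⟩
  · rintro ⟨n, c, hn, hc⟩
    obtain ⟨C, hC, hr⟩ := exists_reach n hn
    exact ⟨C, hC, hr.state.symm ▸ hc⟩

/-! ### Computability -/

open Primrec in
theorem primrec_equiv : Primrec Machine.equiv := Primrec.of_equiv

theorem primrec_start : Primrec Machine.start :=
  (Primrec.fst.comp primrec_equiv).of_eq fun _ => rfl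

theorem primrec_halting : Primrec Machine.halting :=
  (Primrec.fst.comp (Primrec.snd.comp primrec_equiv)).of_eq fun _ => rfl

theorem primrec_table : Primrec Machine.table :=
  (Primrec.snd.comp (Primrec.snd.comp primrec_equiv)).of_eq fun _ => rfl

theorem primrec_fmove : Primrec₂ fmove := by
  have hd : Primrec fun p : FCfg × (ℕ × ℕ × Fin 3) => (p.2.2.2 : ℕ) :=
    Primrec.fin_val.comp (Primrec.snd.comp (Primrec.snd.comp Primrec.snd))
  have hq : Primrec fun p : FCfg × (ℕ × ℕ × Fin 3) => p.2.1 := Primrec.fst.comp Primrec.snd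
  have hb : Primrec fun p : FCfg × (ℕ × ℕ × Fin 3) => p.2.2.1 :=
    Primrec.fst.comp (Primrec.snd.comp Primrec.snd)
  have hL : Primrec fun p : FCfg × (ℕ × ℕ × Fin 3) => p.1.2.1 :=
    Primrec.fst.comp (Primrec.snd.comp Primrec.fst)
  have hR : Primrec fun p : FCfg × (ℕ × ℕ × Fin 3) => p.1.2.2 :=
    Primrec.snd.comp (Primrec.snd.comp Primrec.fst)
  have hbR : Primrec fun p : FCfg × (ℕ × ℕ × Fin 3) => p.2.2.1 :: p.1.2.2.tail :=
    Primrec.list_cons.comp hb (Primrec.list_tail.comp hR)
  refine Primrec.ite (Primrec.eq.comp hd (Primrec.const 0)) ?_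
    (Primrec.ite (Primrec.eq.comp hd (Primrec.const 1)) ?_ ?_)
  · exact Primrec.pair hq (Primrec.pair (Primrec.list_tail.comp hL)
      (Primrec.list_cons.comp (Primrec.list_headI.comp hL) hbR))
  · exact Primrec.pair hq (Primrec.pair hL hbR)
  · exact Primrec.pair hq (Primrec.pair (Primrec.list_cons.comp hb hL) (Primrec.list_tail.comp hR))

theorem primrec_fstep : Primrec₂ fstep := by
  have h1 : Primrec fun p : Machine × FCfg => p.1.table := primrec_table.comp Primrec.fst
  have h2 : Primrec fun p : Machine × FCfg => (p.2.1, p.2.2.2.headI) :=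
    Primrec.pair (Primrec.fst.comp Primrec.snd)
      (Primrec.list_headI.comp (Primrec.snd.comp (Primrec.snd.comp Primrec.snd)))
  have h3 : Primrec fun p : Machine × FCfg =>
      p.1.table.lookup (p.2.1, p.2.2.2.headI) := by
    refine (Primrec.listLookup.comp h2 h1).of_eq fun p => ?_
    congr 1
    exact lawful_beq_subsingleton _ _
  exact Primrec.option_map h3 (primrec_fmove.comp (Primrec.snd.comp Primrec.fst) Primrec.snd)

/-- The halting test after `n` steps. -/
def haltTest (p : Machine × List ℕ) (n : ℕ) : Bool :=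
  ((fiter p.1 (p.1.start, [], p.2) n).map fun c => decide (∃ q ∈ p.1.halting, q = c.1)).getD false

theorem primrec_haltTest : Primrec₂ haltTest := by
  have h1 : Primrec fun p : (Machine × List ℕ) × ℕ =>
      fiter p.1.1 (p.1.1.start, [], p.1.2) p.2 := by
    have := Primrec.nat_rec' (α := (Machine × List ℕ) × ℕ) (β := Option FCfg)
      (f := fun p => p.2) (g := fun p => some (p.1.1.start, [], p.1.2))
      (h := fun p o => o.2.bind (fstep p.1.1)) Primrec.snd ?_ ?_
    · exact this.of_eq fun p => rfl
    · exact Primrec.option_some.comp (Primrec.pair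
        (primrec_start.comp (Primrec.fst.comp Primrec.fst))
        (Primrec.pair (Primrec.const []) (Primrec.snd.comp Primrec.fst)))
    · refine Primrec.option_bind (Primrec.snd.comp Primrec.snd) ?_
      exact primrec_fstep.comp
        (Primrec.fst.comp (Primrec.fst.comp (Primrec.fst.comp Primrec.fst))) Primrec.snd
  have h2 : PrimrecRel fun (L : List ℕ) (b : ℕ) => ∃ q ∈ L, q = b :=
    PrimrecRel.exists_mem_list Primrec.eq
  refine Primrec.option_getD.comp (Primrec.option_map h1 ?_) (Primrec.const false)
  refine (PrimrecRel.decide h2).comp ?_ ?_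
  · exact primrec_halting.comp (Primrec.fst.comp (Primrec.fst.comp Primrec.fst))
  · exact Primrec.fst.comp Primrec.snd

theorem haltTest_iff (p : Machine × List ℕ) (n : ℕ) : haltTest p n = true ↔
    ∃ c, fiter p.1 (p.1.start, [], p.2) n = some c ∧ c.1 ∈ p.1.halting := by
  unfold haltTest
  cases fiter p.1 (p.1.start, [], p.2) n with
  | none => simp
  | some c => simp

/-- The halting problem of the raw machine data is recursively enumerable. -/
theorem rePred_halts : REPred fun p : Machine × List ℕ => p.1.Halts p.2 := by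
  have h0 : Computable₂ fun (p : Machine × List ℕ) (n : ℕ) =>
      bif haltTest p n then some () else none :=
    Computable.cond primrec_haltTest.to_comp (Computable.const _) (Computable.const _)
  have h1 := Partrec.rfindOpt h0
  refine h1.dom_re.of_eq fun p => ?_
  rw [halts_iff, Nat.rfindOpt_dom]
  refine exists_congr fun n => ?_
  rw [← haltTest_iff]
  cases haltTest p n <;> simp

end Vale.Agent.P113.H586
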