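import Vale.Agent.P113.Iface
import Vale.Agent.P113.H586.Halts
import Vale.Agent.P113.H799.R

/-!
Computability of the compiler, values and validity of the loading terms.
-/

open Set

namespace Vale.Agent.P113.H586

theorem partG1 : PartG1 := rePred_halts

theorem primrec_int_ofNat : Primrec fun n : ℕ => (n : ℤ) := by
  rw [← Primrec.encode_iff]
  have h : ∀ n : ℕ, Encodable.encode (n : ℤ) = 2 * n := fun n => rfl
  exact (Primrec.nat_mul.comp (Primrec.const 2) Primrec.id).of_eq fun n => (h n).symm

theorem primrec_pow (K : ℕ) : Primrec fun n : ℕ => K ^ n :=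
  (Primrec₂.unpaired'.1 Nat.Primrec.pow).comp (Primrec.const K) Primrec.id

theorem primrec_fold (K : ℕ) :
    Primrec fun l : List ℕ => l.foldl (fun acc a => acc * K + a) 0 := by
  refine Primrec.list_foldl (h := fun _ p => p.1 * K + p.2) Primrec.id (Primrec.const 0) ?_
  exact Primrec.nat_add.comp
    (Primrec.nat_mul.comp (Primrec.fst.comp Primrec.snd) (Primrec.const K))
    (Primrec.snd.comp Primrec.snd)

theorem primrec_loadTerm {α : Type*} [Primcodable α] (m : ℕ) {f g : α → ℕ} (hf : Primrec f)
    (hg : Primrec g) : Primrec fun a => loadTerm m ((f a : ℤ), g a) := by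
  have h1 : Primrec fun a => (1024 : ℤ) * (f a : ℤ) := by
    refine (primrec_int_ofNat.comp (Primrec.nat_mul.comp (Primrec.const 1024) hf)).of_eq
      fun a => ?_
    push_cast; ring
  exact Primrec.pair (Primrec.pair h1 hg) (Primrec.const _)

theorem primrec_code {k : ℕ} (K s0 : ℕ) (P : Fin 3 → List TermCode) :
    Primrec fun l : List (Fin k) =>
      fullCode P (wordCode K (s0 :: l.map Fin.val)) (scaleCode K (l.length + 1)) := by
  rw [Primrec.fin_curry]
  refine Primrec₂.swap ?_
  rw [Primrec.fin_curry₁]
  intro i
  have hl : Primrec fun l : List (Fin k) => s0 :: l.map Fin.val :=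
    Primrec.list_cons.comp (Primrec.const s0)
      (Primrec.list_map Primrec.id (Primrec.fin_val.comp Primrec.snd))
  have h0 : Primrec fun l : List (Fin k) => loadTerm 0 (wordCode K (s0 :: l.map Fin.val)) :=
    primrec_loadTerm 0 ((primrec_fold K).comp hl)
      ((primrec_pow K).comp (Primrec.list_length.comp hl))
  have h1 : Primrec fun l : List (Fin k) => loadTerm 1 (scaleCode K (l.length + 1)) :=
    primrec_loadTerm 1 (Primrec.const 1)
      ((primrec_pow K).comp (Primrec.nat_add.comp Primrec.list_length (Primrec.const 1)))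
  unfold fullCode
  refine Primrec.list_append.comp ?_ (Primrec.const (P i))
  by_cases hi : i = 0
  · simp only [hi, if_true]
    exact Primrec.list_cons.comp h0 (Primrec.const [])
  · by_cases hi1 : i = 1
    · simp only [hi1, if_true, one_ne_zero, if_false]
      exact Primrec.list_cons.comp h1 (Primrec.const [])
    · simp only [hi, hi1, if_false]
      exact Primrec.const []

theorem partG2 : PartG2 := by
  intro k init K s0 P hinit
  exact (primrec_code K s0 P).to_comp.comp hinit

/-! ### Values -/

theorem foldl_eq (K : ℕ) (l : List ℕ) (c : ℕ) :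
    l.foldl (fun acc a => acc * K + a) c =
      c * K ^ l.length + l.foldl (fun acc a => acc * K + a) 0 := by
  induction l generalizing c with
  | nil => simp
  | cons a l ih =>
    rw [List.foldl_cons, List.foldl_cons, ih, ih (0 * K + a), List.length_cons]
    ring

theorem qval_wordCode {K : ℕ} (hK : K ≠ 0) (l : List ℕ) :
    qval (wordCode K l) = wordVal K l := by
  have hK' : (K : ℝ) ≠ 0 := by exact_mod_cast hK
  induction l with
  | nil => simp [wordCode, wordVal, qval]
  | cons a l ih =>
    simp only [wordCode, qval, wordVal] at ih ⊢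
    rw [List.foldl_cons, foldl_eq, ← ih, List.length_cons]
    push_cast
    field_simp
    ring

theorem qval_scaleCode (K n : ℕ) : qval (scaleCode K n) = ((K : ℝ) ^ n)⁻¹ := by
  simp [scaleCode, qval]

theorem wordCode_den {K : ℕ} (hK : K ≠ 0) (l : List ℕ) : (wordCode K l).2 ≠ 0 := by
  simp [wordCode, hK]

theorem scaleCode_den {K : ℕ} (hK : K ≠ 0) (n : ℕ) : (scaleCode K n).2 ≠ 0 := by
  simp [scaleCode, hK]

theorem loadTerm_valid (m : ℕ) {q : QCode} (hq : q.2 ≠ 0) : TermCode.Valid (loadTerm m q) := by
  simp [loadTerm, TermCode.Valid, BumpCode.Valid, hq, qval]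

theorem loadTerm_not_periodic (m : ℕ) (q : QCode) : isPeriodic (loadTerm m q) = false := by
  simp [loadTerm, isPeriodic]

theorem loadTerm_val (ν : ℝ) (m : ℕ) (q : QCode) (t : ℝ) (x : E) :
    termVal ν (loadTerm m q) t x =
      qval q * (1024 * kappa⁻¹ * iteratedDeriv 1 rho (32 * t - (2 * m + 1))) := by
  simp [termVal, loadTerm, bump, qval]
  ring

theorem loadTerm_vanish (ν : ℝ) (m : ℕ) (q : QCode) (t : ℝ) (x : E)
    (ht : ((m : ℝ) + 1) / 16 ≤ t) : termVal ν (loadTerm m q) t x = 0 := by
  rw [loadTerm_val]
  have : iteratedDeriv 1 rho (32 * t - (2 * m + 1)) = 0 := by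
    apply R.drho_eq_zero' 1
    rw [le_abs]; left
    linarith
  rw [this, mul_zero, mul_zero]

/-- The compiler built from a computable initial word and fixed periodic terms is a force
compiler. -/
theorem isForceCompiler {k : ℕ} (init : Machine × List ℕ → List (Fin k)) {K : ℕ} (hK : K ≠ 0)
    (s0 : ℕ) (P : Fin 3 → List TermCode)
    (hP : ∀ i, ∀ τ ∈ P i, TermCode.Valid τ ∧ isPeriodic τ = true) (hinit : Computable init) :
    IsForceCompiler fun z : Machine × List ℕ =>
        fullCode P (wordCode K (s0 :: (init z).map Fin.val))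
          (scaleCode K ((init z).length + 1)) where
  computable := partG2 k init K s0 P hinit
  valid := by
    intro M w i τ hτ
    unfold fullCode at hτ
    rw [List.mem_append] at hτ
    rcases hτ with hτ | hτ
    · split_ifs at hτ
      · rw [List.mem_singleton] at hτ
        rw [hτ]; exact loadTerm_valid _ (wordCode_den hK _)
      · rw [List.mem_singleton] at hτ
        rw [hτ]; exact loadTerm_valid _ (scaleCode_den hK _)
      · simp at hτ
    · exact (hP i τ hτ).1
  vanish := by
    refine ⟨1 / 2, ?_⟩
    intro M w i τ hτ hper ν t x ht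
    unfold fullCode at hτ
    rw [List.mem_append] at hτ
    rcases hτ with hτ | hτ
    · split_ifs at hτ
      · rw [List.mem_singleton] at hτ
        rw [hτ]; exact loadTerm_vanish _ _ _ _ _ (by norm_num; linarith)
      · rw [List.mem_singleton] at hτ
        rw [hτ]; exact loadTerm_vanish _ _ _ _ _ (by norm_num; linarith)
      · simp at hτ
    · rw [(hP i τ hτ).2] at hper
      exact absurd hper (by simp)
  periodic := by
    intro M w w' i
    unfold fullCode
    rw [List.filter_append, List.filter_append]
    congr 1
    split_ifs <;> simp [loadTerm_not_periodic]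

end Vale.Agent.P113.H586
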