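import Vale.Agent.P113.Assembly

/-!
The final statement with the two additional clauses: the box has sides at most one, and the force
is smooth and periodic.
-/

open Set MeasureTheory
open scoped ContDiff

namespace Vale.Agent.P113

/-- The full statement (for internal use; the hand-in states it without this abbreviation). -/
def FullStatement : Prop :=
  ∃ (a lo hi : Fin 3 → ℚ) (F : Machine × List ℕ → Fin 3 → List TermCode),
    (∀ i, lo i < hi i ∧ hi i ≤ lo i + 1) ∧ IsForceCompiler F ∧
    ∀ ν : ℝ, 0 < ν → ∀ (M : Machine) (w : List ℕ),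
      ContDiff ℝ ∞ (fun z : ℝ × E => forceVal ν (F (M, w)) z.1 z.2) ∧
      ∃ (u : ℝ → E → E) (p : ℝ → E → ℝ),
      IsGlobalSmoothSolution ν (forceVal ν (F (M, w))) u p ∧
      (∀ T : ℝ, 0 < T → ∀ (v : ℝ → E → E) (q : ℝ → E → ℝ),
        IsClassicalSolution ν (forceVal ν (F (M, w))) (Icc 0 T) v q →
          ∀ t ∈ Icc 0 T, v t = u t ∧ q t = p t) ∧
      (∃ X : ℝ → E, IsTrajectory u (fun i => (a i : ℝ)) X) ∧
      ∀ X : ℝ → E, IsTrajectory u (fun i => (a i : ℝ)) X →
        (Meets lo hi X ↔ M.Halts w)

/-- Smoothness of the force given by valid terms. -/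
def PartSmooth : Prop :=
  ∀ F : Fin 3 → List TermCode, (∀ i, ∀ τ ∈ F i, TermCode.Valid τ) → ∀ ν : ℝ,
    ContDiff ℝ ∞ (fun z : ℝ × E => forceVal ν F z.1 z.2)

theorem assemble_full (hB : PartB) (hDS : PartDS) (hT : PartT) (hC : PartC) (hEF : PartEF)
    (hG1 : PartG1) (hG2 : PartG2) (hS : PartSmooth) : FullStatement := by
  obtain ⟨m, k, d, H, s0, init, hinit, hlen, hP⟩ :=
    hEF (Machine × List ℕ) (fun z => z.1.Halts z.2) hG1
  obtain ⟨K, V, dir, hK, hV, hind, hC⟩ := hC m k d H
  obtain ⟨P, hPv, hNS⟩ := hDS V dir hV hind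
  set X0 : Machine × List ℕ → QCode := fun z => wordCode K ((s0 : ℕ) :: (init z).map Fin.val)
    with hX0
  set Y0 : Machine × List ℕ → QCode := fun z => scaleCode K ((init z).length + 1) with hY0
  have hF : IsForceCompiler fun z => fullCode P (X0 z) (Y0 z) :=
    isForceCompiler_fullCode P hPv X0 Y0 (fun z => wordCode_den K hK _)
      (fun z => scaleCode_den K hK _) (hG2 k init K s0 P hinit)
  refine ⟨fun _ => 0, boxLo, boxHi, fun z => fullCode P (X0 z) (Y0 z), ?_, hF, ?_⟩
  · intro i
    fin_cases i <;> norm_num [boxLo, boxHi]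
  · intro ν hν M w
    refine ⟨hS _ (fun i τ hτ => hF.valid M w i τ hτ) ν, ?_⟩
    have hsol := hNS (X0 (M, w)) (Y0 (M, w)) (wordCode_den K hK _) (scaleCode_den K hK _) ν hν
    refine ⟨vel V dir (qval (X0 (M, w))) (qval (Y0 (M, w))), fun _ _ => 0, hsol, ?_, ?_, ?_⟩
    · intro T hT v q hv
      exact hB ν hν _ _ v _ q T hT hsol.solution hv
    · have h := (hT V dir hV hind (qval (X0 (M, w))) (qval (Y0 (M, w)))).1
      have h0 : (fun i : Fin 3 => (((fun _ => 0 : Fin 3 → ℚ) i : ℚ) : ℝ)) = (0 : E) := by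
        ext i
        simp
      rw [h0]
      exact h
    · intro X hX
      have hX' : IsTrajectory (vel V dir (qval (X0 (M, w))) (qval (Y0 (M, w)))) 0 X := by
        refine ⟨?_, hX.ode⟩
        rw [hX.start]
        ext i
        simp
      obtain ⟨hpt, hseg⟩ :=
        (hT V dir hV hind (qval (X0 (M, w))) (qval (Y0 (M, w)))).2 X hX'
      obtain ⟨hC1, hC2⟩ := hC s0 (init (M, w)) (hlen _)
        (orbit V dir (qval (X0 (M, w))) (qval (Y0 (M, w))))
        (by rw [← qval_wordCode K hK, ← qval_scaleCode])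
      have hPMw := hP (M, w)
      constructor
      · intro hmeet
        by_contra hnot
        have hnot' : ∀ n, H ((qstep d)^[n] (s0, init (M, w))).1 = false := by
          intro n
          by_contra hne
          exact hnot (hPMw.2 ⟨n, by simpa using hne⟩)
        have hz := hC2 hnot'
        refine not_meets ?_ hmeet
        intro t ht
        have hn0 : 0 ≤ 16 * t := by positivity
        have h1 := Nat.floor_le hn0
        have h2 := Nat.lt_floor_add_one (16 * t)
        exact abs_le_of_segment (hseg ⌊16 * t⌋₊ t (by linarith) (by linarith))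
          (hz _) (hz _)
      · intro hhalt
        obtain ⟨n, hn0, hn1, hn2, hn3⟩ := hC1 (hPMw.1 hhalt)
        refine meets_of_mem (t := (n : ℝ) / 16) (by positivity) ?_ ?_ ?_ ?_
        · rw [hpt n]
          exact hn0
        · rw [hpt n]
          exact hn1
        · rw [hpt n]
          exact hn2
        · rw [hpt n]
          exact hn3

end Vale.Agent.P113
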