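import Vale.Agent.P113.H586.Full

/-!
Draft of the hand-in: the statement written out in full, from the parts.
-/

open Set
open scoped ContDiff
open Vale.Agent.P113

namespace Vale.Agent.P113.H586

theorem result_of_parts (hB : PartB) (hDS : PartDS) (hT : PartT) (hC : PartC) (hEF : PartEF)
    (hG1 : PartG1) (hG2 : PartG2) (hS : PartSmooth) :
    ∃ (a lo hi : Fin 3 → ℚ) (F : Machine × List ℕ → Fin 3 → List TermCode),
      (∀ i, lo i < hi i ∧ hi i ≤ lo i + 1) ∧ IsForceCompiler F ∧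
      ∀ ν : ℝ, 0 < ν → ∀ (M : Machine) (w : List ℕ),
        ContDiff ℝ ∞ (fun z : ℝ × E => forceVal ν (F (M, w)) z.1 z.2) ∧
        ∃ (u : ℝ → E → E) (p : ℝ → E → ℝ),
          IsGlobalSmoothSolution ν (forceVal ν (F (M, w))) u p ∧
          (∀ T : ℝ, 0 < T → ∀ (v : ℝ → E → E) (q : ℝ → E → ℝ),
            IsClassicalSolution ν (forceVal ν (F (M, w))) (Icc 0 T) v q →
              ∀ t ∈ Icc 0 T, v t = u t ∧ q t = p t) ∧
          (∃ X : ℝ → E, IsTrajectory u (fun i => (a i : ℝ)) X) ∧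
          ∀ X : ℝ → E, IsTrajectory u (fun i => (a i : ℝ)) X →
            (Meets lo hi X ↔ M.Halts w) :=
  assemble_full hB hDS hT hC hEF hG1 hG2 hS

end Vale.Agent.P113.H586
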